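import Mathlib
import Vale.Agent.Lib.P162.Defs

/-!
# P162-G (pool job 286): two of the `k` tracked cards evolve as the 2-card chain (helper5)
-/

namespace Vale.Agent.Lib.P162.H5

open Finset BigOperators

theorem pair_eq_iff {α : Type*} (a b : α) (v : Fin 2 → α) : ![a, b] = v ↔ a = v 0 ∧ b = v 1 := by
  constructor
  · rintro rfl
    exact ⟨rfl, rfl⟩
  · rintro ⟨rfl, rfl⟩
    funext i
    fin_cases i <;> rfl

/-- One step: summing the `k`-card kernel over the targets with prescribed positions of the cards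
`j`, `j'` gives the 2-card kernel. -/
theorem step_lump (h k : ℕ) [NeZero h] (x : Fin k → ZMod (2 * h)) (j j' : Fin k)
    (v : Fin 2 → ZMod (2 * h)) :
    ∑ u ∈ univ.filter (fun u : Fin k → ZMod (2 * h) => u j = v 0 ∧ u j' = v 1), Kmat h k x u
      = Kmat h 2 ![x j, x j'] v := by
  show ∑ u ∈ univ.filter (fun u : Fin k → ZMod (2 * h) => u j = v 0 ∧ u j' = v 1),
      ((univ.filter fun c : ZMod h → Bool => ∀ i, move h c (x i) = u i).card : ℝ) / 2 ^ h
    = ((univ.filter fun c : ZMod h → Bool =>
        ∀ i, move h c (![x j, x j'] i) = v i).card : ℝ) / 2 ^ h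
  rw [← Finset.sum_div]
  congr 1
  rw [← Nat.cast_sum]
  congr 1
  have hset : (univ.filter fun c : ZMod h → Bool => ∀ i : Fin 2, move h c (![x j, x j'] i) = v i)
      = univ.filter fun c : ZMod h → Bool => move h c (x j) = v 0 ∧ move h c (x j') = v 1 := by
    ext c
    simp [Fin.forall_fin_two]
  rw [hset]
  rw [Finset.card_eq_sum_card_fiberwise (f := fun c : ZMod h → Bool => fun i => move h c (x i))
    (t := univ.filter (fun u : Fin k → ZMod (2 * h) => u j = v 0 ∧ u j' = v 1))]
  · refine Finset.sum_congr rfl fun u hu => ?_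
    congr 1
    ext c
    simp only [mem_filter, mem_univ, true_and] at hu ⊢
    constructor
    · intro hc
      refine ⟨⟨?_, ?_⟩, funext hc⟩
      · rw [hc j]
        exact hu.1
      · rw [hc j']
        exact hu.2
    · rintro ⟨_, hc⟩ i
      rw [← hc]
  · intro c hc
    simpa using hc

set_option linter.unusedVariables false in
theorem lump_pair (h k : ℕ) [NeZero h] (x : Fin k → ZMod (2 * h)) (j j' : Fin k) (hjj : j ≠ j')
    (s : ℕ) (w : Fin 2 → ZMod (2 * h)) :
    ∑ y ∈ univ.filter (fun y : Fin k → ZMod (2 * h) => y j = w 0 ∧ y j' = w 1),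
        (Kmat h k ^ s) x y
      = (Kmat h 2 ^ s) ![x j, x j'] w := by
  induction s generalizing x with
  | zero =>
    simp only [pow_zero, Matrix.one_apply]
    rw [Finset.sum_ite_eq]
    simp only [mem_filter, mem_univ, true_and]
    by_cases hx : x j = w 0 ∧ x j' = w 1
    · rw [if_pos hx, if_pos ((pair_eq_iff _ _ _).mpr hx)]
    · rw [if_neg hx, if_neg (fun h' => hx ((pair_eq_iff _ _ _).mp h'))]
  | succ s ih =>
    rw [pow_succ', pow_succ']
    simp only [Matrix.mul_apply]
    rw [Finset.sum_comm]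
    have h1 : ∀ u : Fin k → ZMod (2 * h),
        ∑ y ∈ univ.filter (fun y : Fin k → ZMod (2 * h) => y j = w 0 ∧ y j' = w 1),
          Kmat h k x u * (Kmat h k ^ s) u y
        = Kmat h k x u * (Kmat h 2 ^ s) ![u j, u j'] w := by
      intro u
      rw [← Finset.mul_sum, ih u]
    rw [Finset.sum_congr rfl fun u _ => h1 u]
    rw [← Finset.sum_fiberwise (s := univ) (g := fun u : Fin k → ZMod (2 * h) => ![u j, u j'])
      (f := fun u => Kmat h k x u * (Kmat h 2 ^ s) ![u j, u j'] w)]
    refine Finset.sum_congr rfl fun v _ => ?_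
    rw [← step_lump h k x j j' v, Finset.sum_mul]
    have hf : (univ.filter fun u : Fin k → ZMod (2 * h) => ![u j, u j'] = v)
        = univ.filter fun u : Fin k → ZMod (2 * h) => u j = v 0 ∧ u j' = v 1 := by
      ext u
      simp only [mem_filter, mem_univ, true_and]
      exact pair_eq_iff _ _ _
    rw [hf]
    refine Finset.sum_congr rfl fun u hu => ?_
    simp only [mem_filter, mem_univ, true_and] at hu
    rw [(pair_eq_iff (u j) (u j') v).mpr hu]

end Vale.Agent.Lib.P162.H5
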