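import Mathlib
import Vale.Agent.Lib.P162.Defs
import Vale.Agent.Lib.P162.RDefs
import Vale.Agent.Lib.P162.helper95.KmatBasic
import Vale.Agent.Lib.P162.helper36.MoveInj

/-!
Thorp shuffle, adding one tracked card: the `l1` distance of the `(j+1)`-card chain to the uniform
law on injective `(j+1)`-tuples is at most the defect plus the `l1` distance for the `j` old cards.
-/

namespace Vale.Agent.Lib.P162.H5

open Finset BigOperators

/-- Sum over `(k+1)`-tuples, split as first coordinate and the remaining `k`-tuple. -/
theorem sum_cons {α : Type*} [Fintype α] [DecidableEq α] (k : ℕ) (f : (Fin (k + 1) → α) → ℝ) :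
    ∑ y : Fin (k + 1) → α, f y = ∑ q : α, ∑ y' : Fin k → α, f (Fin.cons q y') := by
  rw [← Fintype.sum_prod_type' (fun (q : α) (y' : Fin k → α) => f (Fin.cons q y'))]
  exact (Fintype.sum_equiv (Fin.consEquiv (fun _ : Fin (k + 1) => α))
    (fun p : α × (Fin k → α) => f (Fin.cons p.1 p.2)) f (fun _ => rfl)).symm

/-- The number of points avoided by an injective `j`-tuple. -/
theorem card_avoid {α : Type*} [Fintype α] [DecidableEq α] (j : ℕ) (v : Fin j → α)
    (hv : Function.Injective v) :
    (univ.filter fun q : α => ∀ i, q ≠ v i).card = Fintype.card α - j := by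
  have h1 : (univ.filter fun q : α => ∀ i, q ≠ v i) = (univ.image v)ᶜ := by
    ext q
    simp only [mem_filter, mem_univ, true_and, mem_compl, mem_image, not_exists]
    constructor
    · intro h i hi
      exact h i hi.symm
    · intro h i hi
      exact h i hi.symm
  rw [h1, Finset.card_compl, Finset.card_image_of_injective _ hv, Finset.card_univ,
    Fintype.card_fin]

/-- Abstract core of `tv_step`: resampling the new coordinate uniformly on the free points turns
the `l1` distance to the uniform injective `(j+1)`-tuples into that for `j`-tuples. -/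
theorem tv_core {α : Type*} [Fintype α] [DecidableEq α] (j N : ℕ) (hN : Fintype.card α = N)
    (hj : j + 1 ≤ N) (A : (Fin j → α) → ℝ) (hA : ∀ v, ¬ Function.Injective v → A v = 0) :
    ∑ y : Fin (j + 1) → α,
        |(if ∀ i : Fin j, y 0 ≠ y i.succ then A (Fin.tail y) / ((N : ℝ) - j) else 0)
          - (if Function.Injective y then 1 / (N.descFactorial (j + 1) : ℝ) else 0)|
      ≤ ∑ v : Fin j → α,
        |A v - (if Function.Injective v then 1 / (N.descFactorial j : ℝ) else 0)| := by
  classical
  rw [sum_cons, Finset.sum_comm]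
  apply Finset.sum_le_sum
  intro v _
  have hc : ((N : ℝ) - j) = ((N - j : ℕ) : ℝ) := by
    rw [Nat.cast_sub (by omega)]
  have hpos : (0 : ℝ) < (N : ℝ) - j := by
    rw [hc]
    exact_mod_cast (by omega : 0 < N - j)
  simp only [Fin.cons_zero, Fin.cons_succ, Fin.tail_cons]
  by_cases hv : Function.Injective v
  · have hterm : ∀ q : α, |(if ∀ i : Fin j, q ≠ v i then A v / ((N : ℝ) - j) else 0)
          - (if Function.Injective (Fin.cons q v : Fin (j + 1) → α) then
              1 / (N.descFactorial (j + 1) : ℝ) else 0)|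
        = if ∀ i : Fin j, q ≠ v i then
            |A v - 1 / (N.descFactorial j : ℝ)| / ((N : ℝ) - j) else 0 := by
      intro q
      by_cases hq : ∀ i : Fin j, q ≠ v i
      · have hinj : Function.Injective (Fin.cons q v : Fin (j + 1) → α) := by
          rw [Fin.cons_injective_iff]
          refine ⟨?_, hv⟩
          rintro ⟨i, hi⟩
          exact hq i hi.symm
        rw [if_pos hq, if_pos hinj, if_pos hq, Nat.descFactorial_succ, Nat.cast_mul, ← hc]
        have h2 : A v / ((N : ℝ) - j) - 1 / (((N : ℝ) - j) * (N.descFactorial j : ℝ))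
            = (A v - 1 / (N.descFactorial j : ℝ)) / ((N : ℝ) - j) := by
          rw [sub_div, div_div, mul_comm]
        rw [h2, abs_div, abs_of_pos hpos]
      · have hinj : ¬ Function.Injective (Fin.cons q v : Fin (j + 1) → α) := by
          rw [Fin.cons_injective_iff]
          rintro ⟨h1, _⟩
          apply hq
          intro i hi
          exact h1 ⟨i, hi.symm⟩
        rw [if_neg hq, if_neg hinj, if_neg hq, sub_zero, abs_zero]
    rw [Finset.sum_congr rfl (fun q _ => hterm q), ← Finset.sum_filter, Finset.sum_const,
      card_avoid j v hv, hN, if_pos hv, nsmul_eq_mul, ← hc, mul_div_cancel₀ _ hpos.ne']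
  · have hterm : ∀ q : α, |(if ∀ i : Fin j, q ≠ v i then A v / ((N : ℝ) - j) else 0)
          - (if Function.Injective (Fin.cons q v : Fin (j + 1) → α) then
              1 / (N.descFactorial (j + 1) : ℝ) else 0)| = 0 := by
      intro q
      have hinj : ¬ Function.Injective (Fin.cons q v : Fin (j + 1) → α) := by
        rw [Fin.cons_injective_iff]
        rintro ⟨_, h2⟩
        exact hv h2
      rw [if_neg hinj, hA v hv, zero_div, ite_self, sub_zero, abs_zero]
    rw [Finset.sum_congr rfl (fun q _ => hterm q), Finset.sum_const_zero]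
    exact abs_nonneg _

theorem tv_step (h j : ℕ) [NeZero h] (t : ℕ) (z : Fin (j + 1) → ZMod (2 * h))
    (hz : Function.Injective z) :
    ∑ y, |(Kmat h (j + 1) ^ t) z y - unifInj h (j + 1) y|
      ≤ defect h j t z + ∑ v, |(Kmat h j ^ t) (Fin.tail z) v - unifInj h j v| := by
  classical
  have hh : 0 < h := Nat.pos_of_ne_zero (NeZero.ne h)
  have hcard : Fintype.card (ZMod (2 * h)) = 2 * h := ZMod.card (2 * h)
  have hj : j + 1 ≤ 2 * h := by
    have h1 := Fintype.card_le_of_injective z hz
    rw [Fintype.card_fin, hcard] at h1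
    exact h1
  have htail : Function.Injective (Fin.tail z) := by
    intro a b hab
    have h1 : z a.succ = z b.succ := hab
    exact Fin.succ_injective _ (hz h1)
  have hA : ∀ v : Fin j → ZMod (2 * h), ¬ Function.Injective v →
      (Kmat h j ^ t) (Fin.tail z) v = 0 := by
    intro v hv
    by_contra hne
    exact hv (H95.Kmat_pow_support h j (H36.move_injective h) (Fin.tail z) htail t v hne)
  have hcore := tv_core (α := ZMod (2 * h)) j (2 * h) hcard hj
    (fun v => (Kmat h j ^ t) (Fin.tail z) v) hA
  have hcast : (((2 * h : ℕ) : ℝ)) = (2 * h : ℝ) := by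
    rw [Nat.cast_mul, Nat.cast_ofNat]
  rw [hcast] at hcore
  have hcore' : ∑ y, |resamp h j t z y - unifInj h (j + 1) y|
      ≤ ∑ v, |(Kmat h j ^ t) (Fin.tail z) v - unifInj h j v| := hcore
  calc ∑ y, |(Kmat h (j + 1) ^ t) z y - unifInj h (j + 1) y|
      ≤ ∑ y, (|(Kmat h (j + 1) ^ t) z y - resamp h j t z y|
          + |resamp h j t z y - unifInj h (j + 1) y|) :=
        Finset.sum_le_sum (fun y _ => abs_sub_le _ _ _)
    _ = defect h j t z + ∑ y, |resamp h j t z y - unifInj h (j + 1) y| := by
        rw [Finset.sum_add_distrib, defect_apply]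
    _ ≤ defect h j t z + ∑ v, |(Kmat h j ^ t) (Fin.tail z) v - unifInj h j v| :=
        add_le_add_right hcore' _

end Vale.Agent.Lib.P162.H5
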