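import Mathlib
import Vale.Agent.Lib.P162.Defs
import Vale.Agent.Lib.P162.helper5.LumpPair
import Vale.Agent.Lib.P162.helper19.TvCompare
import Vale.Agent.Lib.P162.helper23.ProdTv
import Vale.Agent.Lib.P162.helper43.ProdKernelPow
import Vale.Agent.Lib.P162.helper22.WmatPow
import Vale.Agent.Lib.P162.helper77.CountClose
import Vale.Agent.Lib.P162.helper36.MoveInj
import Vale.Agent.Lib.P162.helper63.StepFree
import Vale.Agent.Lib.P162.helper95.KmatBasic
import Vale.Agent.Lib.P162.helper93.PairPartnerFinal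
import Vale.Agent.Lib.P162.helper47.UnifTv

/-!
# P162: assembly of the k-card mixing bound for the Thorp shuffle (backup copy, helper5)

`kcard_mixing`: for every even `n = 2 h`, after `3 * clog 2 n` Thorp shuffles the joint law of the
positions of `k` cards that started at distinct positions is within total variation
`9 k^2 clog 2 n / n` of the uniform law on `k`-tuples of distinct positions.  Assembled from the
pool lemmas of helper57's plan (report 2565): `tv_compare` (helper19), `prod_tv` (helper23),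
`Wk_pow` (helper43), `Wmat_pow` (helper22), `count_close` (helper77), `cast_eq_iff` and
`move_injective` (helper36), `stepProb_free` (helper63), `stepProb_nonneg`, `stepProb_sum`,
`Kmat_pow_support` (helper95), `pair_partner` (helper93), `unif_tv` (helper47), `lump_pair`
(helper5).
-/

namespace Vale.Agent.Lib.P162.H5asm

open Finset BigOperators

theorem Wmat_nonneg (h : ℕ) [NeZero h] (p q : ZMod (2 * h)) : 0 ≤ Wmat h p q := by
  show 0 ≤ (if q = 2 * p then (1 / 2 : ℝ) else 0) + (if q = 2 * p + 1 then (1 / 2 : ℝ) else 0)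
  apply add_nonneg <;> split_ifs <;> norm_num

theorem Wmat_sum (h : ℕ) [NeZero h] (p : ZMod (2 * h)) : ∑ q, Wmat h p q = 1 := by
  show ∑ q, ((if q = 2 * p then (1 / 2 : ℝ) else 0) + (if q = 2 * p + 1 then (1 / 2 : ℝ) else 0))
    = 1
  rw [Finset.sum_add_distrib, Finset.sum_ite_eq', Finset.sum_ite_eq']
  simp only [mem_univ, if_true]
  norm_num

theorem Wk_nonneg (h k : ℕ) [NeZero h] (z y : Fin k → ZMod (2 * h)) : 0 ≤ Wk h k z y :=
  Finset.prod_nonneg fun j _ => Wmat_nonneg h (z j) (y j)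

theorem Wk_sum (h k : ℕ) [NeZero h] (z : Fin k → ZMod (2 * h)) : ∑ y, Wk h k z y = 1 := by
  show ∑ y : Fin k → ZMod (2 * h), ∏ j, Wmat h (z j) (y j) = 1
  rw [← Fintype.prod_sum (fun j q => Wmat h (z j) q)]
  simp only [Wmat_sum, Finset.prod_const_one]

/-- Powers of a stochastic matrix are stochastic. -/
theorem pow_stoch {S : Type*} [Fintype S] [DecidableEq S] (A : Matrix S S ℝ)
    (hA : ∀ z y, 0 ≤ A z y) (hA1 : ∀ z, ∑ y, A z y = 1) (m : ℕ) :
    (∀ z y, 0 ≤ (A ^ m) z y) ∧ ∀ z, ∑ y, (A ^ m) z y = 1 := by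
  induction m with
  | zero =>
    refine ⟨fun z y => ?_, fun z => ?_⟩
    · rw [pow_zero, Matrix.one_apply]
      split_ifs <;> norm_num
    · simp [Matrix.one_apply]
  | succ m ih =>
    refine ⟨fun z y => ?_, fun z => ?_⟩
    · rw [pow_succ, Matrix.mul_apply]
      exact Finset.sum_nonneg fun u _ => mul_nonneg (ih.1 z u) (hA u y)
    · simp only [pow_succ, Matrix.mul_apply]
      rw [Finset.sum_comm]
      simp only [← Finset.mul_sum, hA1, mul_one]
      exact ih.2 z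

theorem Wmat_pow_close (h : ℕ) [NeZero h] (m : ℕ) (p y : ZMod (2 * h)) :
    |(Wmat h ^ m) p y - 1 / (2 * h : ℝ)| ≤ 1 / 2 ^ m := by
  rw [H22.Wmat_pow]
  exact H77.count_close h m _ y

/-- The probability that some two tracked cards share a coin after `s ≥ m` steps. -/
theorem bad_bound (h k : ℕ) [NeZero h] (x : Fin k → ZMod (2 * h)) (hx : Function.Injective x)
    (m s : ℕ) (hm : 2 ^ m ≤ h) (hs : m ≤ s) [DecidablePred (bad h k)] :
    ∑ z ∈ univ.filter (bad h k), (Kmat h k ^ s) x z ≤ (k : ℝ) ^ 2 / 2 ^ m := by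
  classical
  have hK0 : ∀ z, 0 ≤ (Kmat h k ^ s) x z := fun z =>
    (pow_stoch (Kmat h k) (H95.stepProb_nonneg h k) (H95.stepProb_sum h k) s).1 x z
  have hpair : ∀ p : Fin k × Fin k, p.1 ≠ p.2 →
      ∑ z ∈ univ.filter (fun z : Fin k → ZMod (2 * h) => z p.2 = z p.1 + (h : ZMod (2 * h))),
        (Kmat h k ^ s) x z ≤ 1 / 2 ^ m := by
    rintro ⟨j, j'⟩ hjj
    simp only at hjj ⊢
    have hw : (![x j, x j'] : Fin 2 → ZMod (2 * h)) 0 ≠ (![x j, x j'] : Fin 2 → ZMod (2 * h)) 1 :=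
      fun e => hjj (hx e)
    have hpp := H93.pair_partner h ![x j, x j'] hw m s hm hs
    refine le_trans (le_of_eq ?_) hpp
    rw [← Finset.sum_fiberwise_of_maps_to
        (s := univ.filter (fun z : Fin k → ZMod (2 * h) => z j' = z j + (h : ZMod (2 * h))))
        (t := univ.filter (fun w : Fin 2 → ZMod (2 * h) => w 1 = w 0 + (h : ZMod (2 * h))))
        (g := fun z : Fin k → ZMod (2 * h) => ![z j, z j']) (f := fun z => (Kmat h k ^ s) x z)]
    · refine Finset.sum_congr rfl fun w hw' => ?_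
      rw [← H5.lump_pair h k x j j' hjj s w]
      apply Finset.sum_congr _ fun _ _ => rfl
      ext z
      simp only [mem_filter, mem_univ, true_and] at hw' ⊢
      constructor
      · rintro ⟨_, h2⟩
        exact (H5.pair_eq_iff _ _ _).mp h2
      · rintro ⟨h1, h2⟩
        exact ⟨by rw [h1, h2]; exact hw', (H5.pair_eq_iff _ _ _).mpr ⟨h1, h2⟩⟩
    · intro z hz
      simp only [mem_filter, mem_univ, true_and] at hz ⊢
      exact hz
  obtain ⟨P, hP⟩ : ∃ P : Finset (Fin k × Fin k), P = univ.filter (fun p => p.1 ≠ p.2) := ⟨_, rfl⟩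
  have hpt : ∀ z, bad h k z → (Kmat h k ^ s) x z ≤
      ∑ p ∈ P, (if z p.2 = z p.1 + (h : ZMod (2 * h)) then (Kmat h k ^ s) x z else 0) := by
    intro z hz
    have hnn : ∀ p ∈ P, (0 : ℝ) ≤
        (if z p.2 = z p.1 + (h : ZMod (2 * h)) then (Kmat h k ^ s) x z else 0) := by
      intro p _
      split_ifs
      · exact hK0 z
      · exact le_rfl
    by_cases h0 : (Kmat h k ^ s) x z = 0
    · rw [h0]
      exact Finset.sum_nonneg fun p _ => by split_ifs <;> exact le_rfl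
    · have hinj := H95.Kmat_pow_support h k (H36.move_injective h) x hx s z h0
      obtain ⟨j, j', hjj, hc⟩ := hz
      rcases (H36.cast_eq_iff h (z j) (z j')).mp hc with e | e
      · exact absurd (hinj e) (Ne.symm hjj)
      · have hmem : (j, j') ∈ P := by
          rw [hP]
          simp only [mem_filter, mem_univ, true_and]
          exact hjj
        have hsingle := Finset.single_le_sum hnn hmem
        simp only [if_pos e] at hsingle
        exact hsingle
  calc ∑ z ∈ univ.filter (bad h k), (Kmat h k ^ s) x z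
      ≤ ∑ z ∈ univ.filter (bad h k), ∑ p ∈ P,
          (if z p.2 = z p.1 + (h : ZMod (2 * h)) then (Kmat h k ^ s) x z else 0) :=
        Finset.sum_le_sum fun z hz => hpt z (Finset.mem_filter.mp hz).2
    _ ≤ ∑ z, ∑ p ∈ P,
          (if z p.2 = z p.1 + (h : ZMod (2 * h)) then (Kmat h k ^ s) x z else 0) :=
        Finset.sum_le_sum_of_subset_of_nonneg (Finset.filter_subset _ _)
          (fun z _ _ => Finset.sum_nonneg fun p _ => by
            split_ifs
            · exact hK0 z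
            · exact le_rfl)
    _ = ∑ p ∈ P, ∑ z ∈ univ.filter
          (fun z : Fin k → ZMod (2 * h) => z p.2 = z p.1 + (h : ZMod (2 * h))),
            (Kmat h k ^ s) x z := by
        rw [Finset.sum_comm]
        refine Finset.sum_congr rfl fun p _ => ?_
        rw [Finset.sum_filter]
    _ ≤ ∑ _p ∈ P, (1 / 2 ^ m : ℝ) :=
        Finset.sum_le_sum fun p hp => hpair p (by
          rw [hP] at hp
          exact (Finset.mem_filter.mp hp).2)
    _ = (P.card : ℝ) * (1 / 2 ^ m) := by rw [Finset.sum_const, nsmul_eq_mul]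
    _ ≤ (k : ℝ) ^ 2 / 2 ^ m := by
        have hc : (P.card : ℝ) ≤ (k : ℝ) ^ 2 := by
          have h1 : P.card ≤ (univ : Finset (Fin k × Fin k)).card := by
            rw [hP]
            exact Finset.card_le_card (Finset.filter_subset _ _)
          rw [Finset.card_univ, Fintype.card_prod, Fintype.card_fin] at h1
          have h2 : ((k * k : ℕ) : ℝ) = (k : ℝ) ^ 2 := by
            push_cast
            ring
          rw [← h2]
          exact_mod_cast h1
        have h3 : (k : ℝ) ^ 2 / 2 ^ m = (k : ℝ) ^ 2 * (1 / 2 ^ m) := by ring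
        rw [h3]
        exact mul_le_mul_of_nonneg_right hc (by positivity : (0 : ℝ) ≤ 1 / 2 ^ m)

/-- After `m` free steps from any law, the positions are close to independent uniform. -/
theorem free_close (h k : ℕ) [NeZero h] (μ : (Fin k → ZMod (2 * h)) → ℝ) (hμ : ∀ z, 0 ≤ μ z)
    (hμ1 : ∑ z, μ z = 1) (m : ℕ) :
    ∑ y, |Matrix.vecMul μ (Wk h k ^ m) y - (1 / (2 * h : ℝ)) ^ k|
      ≤ (k : ℝ) * (2 * h) / 2 ^ m := by
  have hW := pow_stoch (Wmat h) (Wmat_nonneg h) (Wmat_sum h) m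
  have hhpos : 0 < h := NeZero.pos h
  have hn : (0 : ℝ) < 2 * h := by positivity
  have hz : ∀ z : Fin k → ZMod (2 * h),
      ∑ y : Fin k → ZMod (2 * h), |∏ j, (Wmat h ^ m) (z j) (y j) - (1 / (2 * h : ℝ)) ^ k|
        ≤ (k : ℝ) * (2 * h) / 2 ^ m := by
    intro z
    have hb1 : ∑ _q : ZMod (2 * h), (1 / (2 * h : ℝ)) = 1 := by
      rw [Finset.sum_const, Finset.card_univ, ZMod.card, nsmul_eq_mul]
      push_cast
      field_simp
    have key := H23.prod_tv k (fun j q => (Wmat h ^ m) (z j) q) (fun _ => 1 / (2 * h : ℝ))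
      (fun j q => hW.1 _ _) (fun j => hW.2 _) (fun _ => div_nonneg zero_le_one hn.le) hb1
    simp only [Finset.prod_const, Finset.card_univ, Fintype.card_fin] at key
    refine le_trans key ?_
    calc ∑ j : Fin k, ∑ q, |(Wmat h ^ m) (z j) q - 1 / (2 * h : ℝ)|
        ≤ ∑ _j : Fin k, ∑ _q : ZMod (2 * h), (1 / 2 ^ m : ℝ) :=
          Finset.sum_le_sum fun j _ => Finset.sum_le_sum fun q _ => Wmat_pow_close h m (z j) q
      _ = (k : ℝ) * (2 * h) / 2 ^ m := by
          simp only [Finset.sum_const, Finset.card_univ, ZMod.card, Fintype.card_fin, nsmul_eq_mul]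
          push_cast
          ring
  calc ∑ y, |Matrix.vecMul μ (Wk h k ^ m) y - (1 / (2 * h : ℝ)) ^ k|
      = ∑ y : Fin k → ZMod (2 * h),
          |∑ z, μ z * (∏ j, (Wmat h ^ m) (z j) (y j) - (1 / (2 * h : ℝ)) ^ k)| := by
        refine Finset.sum_congr rfl fun y _ => ?_
        congr 1
        simp only [mul_sub, Finset.sum_sub_distrib, ← Finset.sum_mul, hμ1, one_mul]
        simp only [Matrix.vecMul, dotProduct, H43.Wk_pow]
    _ ≤ ∑ y : Fin k → ZMod (2 * h),
          ∑ z, μ z * |∏ j, (Wmat h ^ m) (z j) (y j) - (1 / (2 * h : ℝ)) ^ k| := by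
        refine Finset.sum_le_sum fun y _ => ?_
        refine le_trans (Finset.abs_sum_le_sum_abs _ _) (le_of_eq ?_)
        refine Finset.sum_congr rfl fun z _ => ?_
        rw [abs_mul, abs_of_nonneg (hμ z)]
    _ = ∑ z, μ z * ∑ y : Fin k → ZMod (2 * h),
          |∏ j, (Wmat h ^ m) (z j) (y j) - (1 / (2 * h : ℝ)) ^ k| := by
        rw [Finset.sum_comm]
        simp only [Finset.mul_sum]
    _ ≤ ∑ z, μ z * ((k : ℝ) * (2 * h) / 2 ^ m) :=
        Finset.sum_le_sum fun z _ => mul_le_mul_of_nonneg_left (hz z) (hμ z)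
    _ = (k : ℝ) * (2 * h) / 2 ^ m := by rw [← Finset.sum_mul, hμ1, one_mul]

theorem kcard_mixing (h k : ℕ) [NeZero h] (x : Fin k → ZMod (2 * h))
    (hx : Function.Injective x) :
    (1 / 2 : ℝ) * ∑ y, |(Kmat h k ^ (3 * Nat.clog 2 (2 * h))) x y - unifInj h k y|
      ≤ 9 * (k : ℝ) ^ 2 * (Nat.clog 2 (2 * h) : ℝ) / (2 * h : ℝ) := by
  classical
  obtain ⟨L, hL⟩ : ∃ L, L = Nat.clog 2 (2 * h) := ⟨_, rfl⟩
  rw [← hL]
  have hhpos : 0 < h := NeZero.pos h
  have hnL : 2 * h ≤ 2 ^ L := by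
    rw [hL]
    exact Nat.le_pow_clog (by norm_num) _
  have hL1 : 1 ≤ L := by
    by_contra hc
    have hL0 : L = 0 := by omega
    rw [hL0] at hnL
    simp at hnL
    omega
  obtain ⟨m0, hm0⟩ : ∃ m0, m0 = Nat.log 2 h := ⟨_, rfl⟩
  have hm0le : 2 ^ m0 ≤ h := by
    rw [hm0]
    exact Nat.pow_log_le_self 2 hhpos.ne'
  have hm0lt : h < 2 ^ (m0 + 1) := by
    rw [hm0]
    exact Nat.lt_pow_succ_log_self (by norm_num) h
  have hm0L : m0 ≤ L := by
    have h2 : 2 ^ m0 ≤ 2 ^ L := le_trans hm0le (by omega)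
    exact (Nat.pow_le_pow_iff_right (by norm_num)).mp h2
  have hKs := fun s => pow_stoch (Kmat h k) (H95.stepProb_nonneg h k) (H95.stepProb_sum h k) s
  obtain ⟨μ, hμdef⟩ : ∃ μ : (Fin k → ZMod (2 * h)) → ℝ, μ = fun z => (Kmat h k ^ L) x z :=
    ⟨_, rfl⟩
  have hμ0 : ∀ z, 0 ≤ μ z := fun z => by
    rw [hμdef]
    exact (hKs L).1 x z
  have hμ1 : ∑ z, μ z = 1 := by
    rw [hμdef]
    exact (hKs L).2 x
  have hvec : ∀ (m : ℕ) (y : Fin k → ZMod (2 * h)),
      Matrix.vecMul μ (Kmat h k ^ m) y = (Kmat h k ^ (L + m)) x y := by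
    intro m y
    rw [pow_add, Matrix.mul_apply, hμdef]
    simp only [Matrix.vecMul, dotProduct]
  have hAB : ∀ z, ¬ bad h k z → Kmat h k z = Wk h k z := by
    intro z hz
    funext y
    exact H63.stepProb_free h k z y hz
  have h1 := H19.tv_compare (Kmat h k) (Wk h k) (H95.stepProb_nonneg h k)
    (H95.stepProb_sum h k) (Wk_nonneg h k) (Wk_sum h k) (bad h k) hAB μ hμ0 (2 * L)
  simp only [hvec] at h1
  have e3 : L + 2 * L = 3 * L := by ring
  rw [e3] at h1
  have h2 : ∀ i ∈ range (2 * L),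
      ∑ z ∈ univ.filter (bad h k), (Kmat h k ^ (L + i)) x z ≤ (k : ℝ) ^ 2 / 2 ^ m0 :=
    fun i _ => bad_bound h k x hx m0 (L + i) hm0le (by omega)
  have h2' : ∑ i ∈ range (2 * L), ∑ z ∈ univ.filter (bad h k), (Kmat h k ^ (L + i)) x z
      ≤ (2 * L : ℝ) * ((k : ℝ) ^ 2 / 2 ^ m0) := by
    refine le_trans (Finset.sum_le_sum h2) ?_
    rw [Finset.sum_const, Finset.card_range, nsmul_eq_mul]
    push_cast
    exact le_rfl
  have h3 := free_close h k μ hμ0 hμ1 (2 * L)
  have h4 := H47.unif_tv h k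
  have htri : ∑ y, |(Kmat h k ^ (3 * L)) x y - unifInj h k y| ≤
      ∑ y, |(Kmat h k ^ (3 * L)) x y - Matrix.vecMul μ (Wk h k ^ (2 * L)) y|
        + ∑ y, |Matrix.vecMul μ (Wk h k ^ (2 * L)) y - (1 / (2 * h : ℝ)) ^ k|
        + ∑ y, |(1 / (2 * h : ℝ)) ^ k - unifInj h k y| := by
    rw [← Finset.sum_add_distrib, ← Finset.sum_add_distrib]
    refine Finset.sum_le_sum fun y _ => ?_
    have t1 := abs_sub_le ((Kmat h k ^ (3 * L)) x y) (Matrix.vecMul μ (Wk h k ^ (2 * L)) y)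
      (unifInj h k y)
    have t2 := abs_sub_le (Matrix.vecMul μ (Wk h k ^ (2 * L)) y) ((1 / (2 * h : ℝ)) ^ k)
      (unifInj h k y)
    linarith
  have hn : (0 : ℝ) < 2 * h := by positivity
  have hD : (0 : ℝ) < 2 ^ m0 := by positivity
  have hnD : (2 * h : ℝ) ≤ 4 * 2 ^ m0 := by
    have h5 : (h : ℝ) < 2 ^ (m0 + 1) := by exact_mod_cast hm0lt
    rw [pow_succ] at h5
    linarith
  have hb1 : (k : ℝ) ^ 2 / 2 ^ m0 ≤ 4 * (k : ℝ) ^ 2 / (2 * h) := by
    rw [div_le_div_iff₀ hD hn]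
    nlinarith [sq_nonneg (k : ℝ)]
  have hnL' : (2 * h : ℝ) ≤ 2 ^ L := by exact_mod_cast hnL
  have hk0 : (0 : ℝ) ≤ k := Nat.cast_nonneg k
  have hb2 : (k : ℝ) * (2 * h) / 2 ^ (2 * L) ≤ (k : ℝ) / (2 * h) := by
    have e : (2 : ℝ) ^ (2 * L) = (2 ^ L) ^ 2 := by rw [mul_comm, pow_mul]
    rw [e, div_le_div_iff₀ (by positivity) hn]
    nlinarith [mul_le_mul hnL' hnL' hn.le (by positivity : (0 : ℝ) ≤ 2 ^ L)]
  have hLr : (1 : ℝ) ≤ L := by exact_mod_cast hL1
  have hsum : ∑ y, |(Kmat h k ^ (3 * L)) x y - unifInj h k y| ≤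
      2 * ((2 * L : ℝ) * (4 * (k : ℝ) ^ 2 / (2 * h))) + (k : ℝ) / (2 * h)
        + (k : ℝ) * (k - 1) / (2 * h) := by
    have h6 := mul_le_mul_of_nonneg_left hb1 (by positivity : (0 : ℝ) ≤ 2 * L)
    linarith [htri, h1, h2', h3, h4, hb2]
  have hfin : (1 / 2 : ℝ) * (2 * ((2 * L : ℝ) * (4 * (k : ℝ) ^ 2 / (2 * h))) + (k : ℝ) / (2 * h)
      + (k : ℝ) * (k - 1) / (2 * h)) ≤ 9 * (k : ℝ) ^ 2 * L / (2 * h) := by
    rw [← sub_nonneg]
    have e : 9 * (k : ℝ) ^ 2 * L / (2 * h) - (1 / 2 : ℝ) * (2 * ((2 * L : ℝ) *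
        (4 * (k : ℝ) ^ 2 / (2 * h))) + (k : ℝ) / (2 * h) + (k : ℝ) * (k - 1) / (2 * h))
        = ((k : ℝ) ^ 2 * L - (k : ℝ) ^ 2 / 2) / (2 * h) := by
      field_simp
      ring
    rw [e]
    apply div_nonneg _ hn.le
    nlinarith [sq_nonneg (k : ℝ)]
  exact le_trans (mul_le_mul_of_nonneg_left hsum (by norm_num)) hfin

end Vale.Agent.Lib.P162.H5asm
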