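import Mathlib
import Vale.Agent.Lib.P162.Defs
import Vale.Agent.Lib.P162.RDefs
import Vale.Agent.Lib.P162.CVDefs
import Vale.Agent.Lib.P162.helper95.KmatBasic
import Vale.Agent.Lib.P162.helper36.MoveInj
import Vale.Agent.Lib.P162.helper34.StepNewFree
import Vale.Agent.Lib.P162.helper93.Gap

/-!
Thorp shuffle, two-walker kernel at the coin level: off partner states the two walkers move as
two cards of the `(j+2)`-card chain (`Q_ge_K`); partners merge with probability at least `1/2`
(`Q_merge`).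
-/

namespace Vale.Agent.Lib.P162.H5CV

open Finset BigOperators

/-- Partners get complementary bits: `move c (p + h) = 4 p + 1 - move c p`. -/
theorem move_partner (h : ℕ) [NeZero h] (c : ZMod h → Bool) (p : ZMod (2 * h)) :
    move h c (p + (h : ZMod (2 * h))) = 4 * p + 1 - move h c p := by
  have hh : (h : ZMod (2 * h)) + h = 0 := H36.half_add_half h
  rw [defs_aux_move, defs_aux_move, H93.H93_partner_bits]
  generalize (xor (decide (h ≤ p.val)) (c (ZMod.cast p))) = β
  cases β
  · simp only [Bool.not_false, if_true, Bool.false_eq_true, if_false]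
    linear_combination hh
  · simp only [Bool.not_true, if_true, Bool.false_eq_true, if_false]
    linear_combination hh

/-- A new card whose partner is among the old cards has a forced move. -/
theorem step_forced (h j : ℕ) [NeZero h] (z y : Fin (j + 1) → ZMod (2 * h)) (i : Fin j)
    (hz : z 0 = z i.succ + (h : ZMod (2 * h))) :
    stepProb h (j + 1) z y
      = (if y 0 = 4 * z i.succ + 1 - y i.succ then (1 : ℝ) else 0)
        * stepProb h j (Fin.tail z) (Fin.tail y) := by
  rw [defs_aux_stepProb, defs_aux_stepProb]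
  by_cases hy : y 0 = 4 * z i.succ + 1 - y i.succ
  · rw [if_pos hy, one_mul]
    congr 3
    apply Finset.filter_congr
    intro c _
    constructor
    · intro H i'
      exact H i'.succ
    · intro H i'
      refine Fin.cases ?_ (fun i'' => ?_) i'
      · rw [hz, move_partner, show move h c (z i.succ) = y i.succ from H i, ← hy]
      · exact H i''
  · rw [if_neg hy, zero_mul]
    have he : (univ.filter fun c : ZMod h → Bool => ∀ i', move h c (z i') = y i') = ∅ := by
      apply Finset.filter_eq_empty_iff.2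
      intro c _ H
      apply hy
      have h0 := H 0
      have hi := H i.succ
      rw [hz, move_partner, hi] at h0
      exact h0.symm
    rw [he, Finset.card_empty, Nat.cast_zero, zero_div]

/-- Forgetting the new card can only increase the one-step probability. -/
theorem stepProb_tail_le (h j : ℕ) [NeZero h] (z y : Fin (j + 1) → ZMod (2 * h)) :
    stepProb h (j + 1) z y ≤ stepProb h j (Fin.tail z) (Fin.tail y) := by
  rw [defs_aux_stepProb, defs_aux_stepProb]
  apply div_le_div_of_nonneg_right _ (by positivity)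
  exact_mod_cast Finset.card_le_card (fun c hc => by
    rw [mem_filter] at hc ⊢
    exact ⟨mem_univ _, fun i => hc.2 i.succ⟩)

theorem Wmat_nonneg (h : ℕ) [NeZero h] (p q : ZMod (2 * h)) : 0 ≤ Wmat h p q := by
  rw [defs_aux_Wmat]
  exact add_nonneg (by split_ifs <;> norm_num) (by split_ifs <;> norm_num)

theorem Wmat_half (h : ℕ) [NeZero h] (p q : ZMod (2 * h)) (hq : q = 2 * p ∨ q = 2 * p + 1) :
    (1 / 2 : ℝ) ≤ Wmat h p q := by
  rw [defs_aux_Wmat]
  rcases hq with hq | hq
  · rw [if_pos hq]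
    have h0 : (0 : ℝ) ≤ (if q = 2 * p + 1 then (1 / 2 : ℝ) else 0) := by
      split_ifs <;> norm_num
    linarith
  · rw [if_pos hq]
    have h0 : (0 : ℝ) ≤ (if q = 2 * p then (1 / 2 : ℝ) else 0) := by
      split_ifs <;> norm_num
    linarith

theorem Wmat_ne_zero (h : ℕ) [NeZero h] (p q : ZMod (2 * h)) (hW : Wmat h p q ≠ 0) :
    q = 2 * p ∨ q = 2 * p + 1 := by
  by_contra hcon
  rw [not_or] at hcon
  apply hW
  rw [defs_aux_Wmat, if_neg hcon.1, if_neg hcon.2, add_zero]

theorem real_N (K A B D c : ℝ) (hK : K = c * B) (hA : A = c * D) (hB0 : 0 ≤ B) (hBD : B ≤ D) :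
    K ≤ A * B / D := by
  by_cases hD : D = 0
  · have hB : B = 0 := le_antisymm (hD ▸ hBD) hB0
    rw [hK, hB, mul_zero, mul_zero, zero_div]
  · rw [hK, hA]
    have e : c * D * B / D = c * B := by field_simp
    rw [e]

theorem real_P (Wa Wb D : ℝ) : Wa * D * (Wb * D) / D = Wa * Wb * D := by
  by_cases hD : D = 0
  · rw [hD]
    simp
  · field_simp

theorem cast_ne_of (h : ℕ) [NeZero h] (p q : ZMod (2 * h)) (h1 : q ≠ p)
    (h2 : q ≠ p + (h : ZMod (2 * h))) : (ZMod.cast p : ZMod h) ≠ ZMod.cast q := by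
  intro he
  rcases (H36.cast_eq_iff h p q).1 he with h3 | h3
  · exact h1 h3
  · exact h2 h3

theorem idx_ne_zero {α : Type*} {j : ℕ} (u : Fin (j + 2) → α) (hu : Function.Injective u)
    (i : Fin j) : u i.succ.succ ≠ u 0 :=
  fun he => absurd (hu he) (Fin.succ_ne_zero _)

theorem idx_ne_one {α : Type*} {j : ℕ} (u : Fin (j + 2) → α) (hu : Function.Injective u)
    (i : Fin j) : u i.succ.succ ≠ u 1 := by
  intro he
  have h2 := congrArg Fin.val (hu he)
  rw [Fin.val_succ, Fin.val_succ, Fin.val_one] at h2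
  omega

theorem one_ne_zero_idx {α : Type*} {j : ℕ} (u : Fin (j + 2) → α) (hu : Function.Injective u) :
    u 1 ≠ u 0 := by
  intro he
  have h2 := congrArg Fin.val (hu he)
  rw [Fin.val_one, Fin.val_zero] at h2
  omega

/-- The second walker shares no coin with an old card when the two walkers are partners. -/
theorem not_newBad_tail (h j : ℕ) [NeZero h] (u : Fin (j + 2) → ZMod (2 * h))
    (hu : Function.Injective u) (hp : u 1 = u 0 + (h : ZMod (2 * h))) :
    ¬ newBad h j (Fin.tail u) := by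
  have hh : (h : ZMod (2 * h)) + h = 0 := H36.half_add_half h
  rintro ⟨i, hi⟩
  refine cast_ne_of h (u 1) (u i.succ.succ) (idx_ne_one u hu i) ?_ hi
  rw [hp, add_assoc, hh, add_zero]
  exact idx_ne_zero u hu i

/-- The first walker shares no coin with an old card when the two walkers are partners. -/
theorem not_newBad_dropTwo (h j : ℕ) [NeZero h] (u : Fin (j + 2) → ZMod (2 * h))
    (hu : Function.Injective u) (hp : u 1 = u 0 + (h : ZMod (2 * h))) :
    ¬ newBad h j (dropTwo u) := by
  rintro ⟨i, hi⟩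
  refine cast_ne_of h (u 0) (u i.succ.succ) (idx_ne_zero u hu i) ?_ hi
  rw [← hp]
  exact idx_ne_one u hu i

/-- From a partner state the two walkers move freely given the old cards. -/
theorem Qmat_partner (h j : ℕ) [NeZero h] (u y : Fin (j + 2) → ZMod (2 * h))
    (hu : Function.Injective u) (hp : u 1 = u 0 + (h : ZMod (2 * h))) :
    Qmat h j u y = Wmat h (u 0) (y 0) * Wmat h (u 1) (y 1)
      * Kmat h j (Fin.tail (Fin.tail u)) (Fin.tail (Fin.tail y)) := by
  have e1 : Kmat h (j + 1) (dropTwo u) (dropTwo y)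
      = Wmat h (u 0) (y 0) * Kmat h j (Fin.tail (Fin.tail u)) (Fin.tail (Fin.tail y)) :=
    H34.step_new_free h j (dropTwo u) (dropTwo y) (not_newBad_dropTwo h j u hu hp)
  have e2 : Kmat h (j + 1) (Fin.tail u) (Fin.tail y)
      = Wmat h (u 1) (y 1) * Kmat h j (Fin.tail (Fin.tail u)) (Fin.tail (Fin.tail y)) :=
    H34.step_new_free h j (Fin.tail u) (Fin.tail y) (not_newBad_tail h j u hu hp)
  rw [Qmat_apply, e1, e2]
  exact real_P _ _ _

/-- Off partner states the two-walker kernel dominates the `(j+2)`-card kernel. -/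
theorem Kmat_le_Qmat (h j : ℕ) [NeZero h] (u y : Fin (j + 2) → ZMod (2 * h))
    (hu : Function.Injective u) (hp : u 1 ≠ u 0 + (h : ZMod (2 * h))) :
    Kmat h (j + 2) u y ≤ Qmat h j u y := by
  have hh : (h : ZMod (2 * h)) + h = 0 := H36.half_add_half h
  have hB0 : 0 ≤ Kmat h (j + 1) (Fin.tail u) (Fin.tail y) := H95.stepProb_nonneg h (j + 1) _ _
  have hBD : Kmat h (j + 1) (Fin.tail u) (Fin.tail y)
      ≤ Kmat h j (Fin.tail (Fin.tail u)) (Fin.tail (Fin.tail y)) := stepProb_tail_le h j _ _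
  rw [Qmat_apply]
  by_cases hsh : ∃ i : Fin j, (ZMod.cast (u 0) : ZMod h) = ZMod.cast (u i.succ.succ)
  · obtain ⟨i, hi⟩ := hsh
    have hui : u 0 = u i.succ.succ + (h : ZMod (2 * h)) := by
      rcases (H36.cast_eq_iff h (u 0) (u i.succ.succ)).1 hi with h3 | h3
      · exact absurd h3 (idx_ne_zero u hu i)
      · rw [h3, add_assoc, hh, add_zero]
    have eK : Kmat h (j + 2) u y
        = (if y 0 = 4 * u i.succ.succ + 1 - y i.succ.succ then (1 : ℝ) else 0)
          * Kmat h (j + 1) (Fin.tail u) (Fin.tail y) :=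
      step_forced h (j + 1) u y i.succ hui
    have eA : Kmat h (j + 1) (dropTwo u) (dropTwo y)
        = (if y 0 = 4 * u i.succ.succ + 1 - y i.succ.succ then (1 : ℝ) else 0)
          * Kmat h j (Fin.tail (Fin.tail u)) (Fin.tail (Fin.tail y)) :=
      step_forced h j (dropTwo u) (dropTwo y) i hui
    exact real_N _ _ _ _ _ eK eA hB0 hBD
  · have hsh' : ∀ i : Fin j, (ZMod.cast (u 0) : ZMod h) ≠ ZMod.cast (u i.succ.succ) :=
      fun i hi => hsh ⟨i, hi⟩
    have hb1 : ¬ newBad h (j + 1) u := by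
      rintro ⟨i, hi⟩
      revert hi
      refine Fin.cases ?_ (fun i' => ?_) i
      · intro hi
        exact cast_ne_of h (u 0) (u 1) (one_ne_zero_idx u hu) hp hi
      · intro hi
        exact hsh' i' hi
    have hb2 : ¬ newBad h j (dropTwo u) := by
      rintro ⟨i, hi⟩
      exact hsh' i hi
    have eK : Kmat h (j + 2) u y
        = Wmat h (u 0) (y 0) * Kmat h (j + 1) (Fin.tail u) (Fin.tail y) :=
      H34.step_new_free h (j + 1) u y hb1
    have eA : Kmat h (j + 1) (dropTwo u) (dropTwo y)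
        = Wmat h (u 0) (y 0) * Kmat h j (Fin.tail (Fin.tail u)) (Fin.tail (Fin.tail y)) :=
      H34.step_new_free h j (dropTwo u) (dropTwo y) hb2
    exact real_N _ _ _ _ _ eK eA hB0 hBD

set_option linter.unusedVariables false in
theorem Q_ge_K (h j : ℕ) [NeZero h] (u y : Fin (j + 2) → ZMod (2 * h))
    (hu : Function.Injective u) (hy : y 0 ≠ y 1) :
    (if u 1 = u 0 + (h : ZMod (2 * h)) then (1 / 2 : ℝ) else 1) * Kmat h (j + 2) u y
      ≤ Qmat h j u y := by
  by_cases hp : u 1 = u 0 + (h : ZMod (2 * h))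
  · have hh : (h : ZMod (2 * h)) + h = 0 := H36.half_add_half h
    have e2 : Kmat h (j + 1) (Fin.tail u) (Fin.tail y)
        = Wmat h (u 1) (y 1) * Kmat h j (Fin.tail (Fin.tail u)) (Fin.tail (Fin.tail y)) :=
      H34.step_new_free h j (Fin.tail u) (Fin.tail y) (not_newBad_tail h j u hu hp)
    have hu01 : u 0 = u 1 + (h : ZMod (2 * h)) := by
      rw [hp, add_assoc, hh, add_zero]
    have eK : Kmat h (j + 2) u y
        = (if y 0 = 4 * u 1 + 1 - y 1 then (1 : ℝ) else 0)
          * Kmat h (j + 1) (Fin.tail u) (Fin.tail y) :=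
      step_forced h (j + 1) u y 0 hu01
    have hD : 0 ≤ Kmat h j (Fin.tail (Fin.tail u)) (Fin.tail (Fin.tail y)) :=
      H95.stepProb_nonneg h j _ _
    have hWb : 0 ≤ Wmat h (u 1) (y 1) := Wmat_nonneg h _ _
    have hWa : 0 ≤ Wmat h (u 0) (y 0) := Wmat_nonneg h _ _
    rw [if_pos hp, Qmat_partner h j u y hu hp, eK, e2]
    by_cases hy0 : y 0 = 4 * u 1 + 1 - y 1
    · rw [if_pos hy0, one_mul]
      by_cases hWb0 : Wmat h (u 1) (y 1) = 0
      · rw [hWb0, zero_mul, mul_zero, mul_zero, zero_mul]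
      · have hy1 := Wmat_ne_zero h (u 1) (y 1) hWb0
        have hWa2 : (1 / 2 : ℝ) ≤ Wmat h (u 0) (y 0) := by
          apply Wmat_half
          rcases hy1 with hy1 | hy1
          · right
            rw [hy0, hy1, hp]
            linear_combination hh
          · left
            rw [hy0, hy1, hp]
            linear_combination hh
        have hWD : 0 ≤ Wmat h (u 1) (y 1)
            * Kmat h j (Fin.tail (Fin.tail u)) (Fin.tail (Fin.tail y)) := mul_nonneg hWb hD
        have h3 := mul_le_mul_of_nonneg_right hWa2 hWD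
        rw [mul_assoc]
        exact h3
    · rw [if_neg hy0, zero_mul, mul_zero]
      exact mul_nonneg (mul_nonneg hWa hWb) hD
  · rw [if_neg hp, one_mul]
    exact Kmat_le_Qmat h j u y hu hp

theorem Q_merge (h j : ℕ) [NeZero h] (u : Fin (j + 2) → ZMod (2 * h))
    (hu : Function.Injective u) (hp : u 1 = u 0 + (h : ZMod (2 * h))) :
    (1 / 2 : ℝ) ≤ ∑ v : Fin j → ZMod (2 * h), ∑ x : ZMod (2 * h),
      Qmat h j u (Fin.cons x (Fin.cons x v) : Fin (j + 2) → ZMod (2 * h)) := by
  have hh : (h : ZMod (2 * h)) + h = 0 := H36.half_add_half h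
  have e : ∀ (v : Fin j → ZMod (2 * h)) (x : ZMod (2 * h)),
      Qmat h j u (Fin.cons x (Fin.cons x v) : Fin (j + 2) → ZMod (2 * h))
        = Wmat h (u 0) x * Wmat h (u 1) x * Kmat h j (Fin.tail (Fin.tail u)) v :=
    fun v x => Qmat_partner h j u _ hu hp
  have hsum : ∑ v : Fin j → ZMod (2 * h), ∑ x : ZMod (2 * h),
        Qmat h j u (Fin.cons x (Fin.cons x v) : Fin (j + 2) → ZMod (2 * h))
      = (∑ x : ZMod (2 * h), Wmat h (u 0) x * Wmat h (u 1) x)
        * ∑ v : Fin j → ZMod (2 * h), Kmat h j (Fin.tail (Fin.tail u)) v := by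
    calc ∑ v : Fin j → ZMod (2 * h), ∑ x : ZMod (2 * h),
          Qmat h j u (Fin.cons x (Fin.cons x v) : Fin (j + 2) → ZMod (2 * h))
        = ∑ v : Fin j → ZMod (2 * h), ∑ x : ZMod (2 * h),
            Wmat h (u 0) x * Wmat h (u 1) x * Kmat h j (Fin.tail (Fin.tail u)) v :=
          Finset.sum_congr rfl (fun v _ => Finset.sum_congr rfl (fun x _ => e v x))
      _ = ∑ v : Fin j → ZMod (2 * h), (∑ x : ZMod (2 * h), Wmat h (u 0) x * Wmat h (u 1) x)
            * Kmat h j (Fin.tail (Fin.tail u)) v :=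
          Finset.sum_congr rfl (fun v _ => (Finset.sum_mul _ _ _).symm)
      _ = (∑ x : ZMod (2 * h), Wmat h (u 0) x * Wmat h (u 1) x)
            * ∑ v : Fin j → ZMod (2 * h), Kmat h j (Fin.tail (Fin.tail u)) v :=
          (Finset.mul_sum _ _ _).symm
  have hK : ∑ v : Fin j → ZMod (2 * h), Kmat h j (Fin.tail (Fin.tail u)) v = 1 :=
    H95.stepProb_sum h j _
  rw [hsum, hK, mul_one]
  have hne : (2 * u 0 : ZMod (2 * h)) ≠ 2 * u 0 + 1 := by
    intro he
    have h1 : (1 : ZMod (2 * h)) = 0 := by linear_combination -he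
    have h2 : ((1 : ℕ) : ZMod (2 * h)) = 0 := by
      rw [Nat.cast_one]
      exact h1
    rw [ZMod.natCast_eq_zero_iff] at h2
    have hpos : 0 < h := Nat.pos_of_ne_zero (NeZero.ne h)
    have h3 := Nat.le_of_dvd (by norm_num) h2
    omega
  have hnn : ∀ x ∈ (univ : Finset (ZMod (2 * h))), 0 ≤ Wmat h (u 0) x * Wmat h (u 1) x :=
    fun x _ => mul_nonneg (Wmat_nonneg h _ _) (Wmat_nonneg h _ _)
  have hsub : ({2 * u 0, 2 * u 0 + 1} : Finset (ZMod (2 * h))) ⊆ univ := Finset.subset_univ _
  have h2 := Finset.sum_le_sum_of_subset_of_nonneg hsub (fun x hx _ => hnn x hx)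
  rw [Finset.sum_pair hne] at h2
  have hb : 2 * u 1 = 2 * u 0 := by
    rw [hp]
    linear_combination hh
  have w1 := Wmat_half h (u 0) (2 * u 0) (Or.inl rfl)
  have w2 := Wmat_half h (u 1) (2 * u 0) (Or.inl hb.symm)
  have w3 := Wmat_half h (u 0) (2 * u 0 + 1) (Or.inr rfl)
  have w4 := Wmat_half h (u 1) (2 * u 0 + 1) (Or.inr (by rw [hb]))
  have m1 := mul_le_mul w1 w2 (by norm_num) (le_trans (by norm_num) w1)
  have m2 := mul_le_mul w3 w4 (by norm_num) (le_trans (by norm_num) w3)
  linarith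

end Vale.Agent.Lib.P162.H5CV
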